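import Vale.Agent.P352X.R.D1.Fo
import Vale.Agent.P352Z.R.D1.ThA

/-!
# P352Z, row D1: the vectors `ell (G(p, q) φ^(μ / 2 p))`
-/

set_option linter.all false

open MeasureTheory Filter Topology Set
open scoped SchwartzMap ComplexConjugate ContDiff RealInnerProductSpace

namespace Vale.Agent.P352X.ZZ.D1

open Vale.Agent.P352 Vale.Agent.P352.GF Vale.Agent.P352.H755
open Vale.Agent.P352.BW (Fc)
open FT Th Ap
open UniformSpace (Completion)
open Complex (I)

noncomputable section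

export Vale.Agent.P352X.D1 (e1 mp_e1 d1 e3 mp_e3 rf d3 d3_B haar3 ft1_eq ft3_eq sw_ft1 sw_ft3
  planch l2 da ft3_da ft_pf shift)

attribute [local instance] Vale.Agent.P352X.D1.haar3

variable {D : Type*} [NormedAddCommGroup D] [InnerProductSpace ℂ D] {c : Ctx D}
  {ell : (V → ℂ) → Completion D} {c0 : ℝ} (h : Ell c ell c0) {G : P3 → ℂ} (hG : MemLp G 2 mP)
include h hG

lemma el_le {F : ℝ → ℂ} (hF : MemLp F 2) :
    ‖ell fun p => G (pm p) * F (tc p)‖ ^ 2 ≤ c0 * (∫ k, ‖G k‖ ^ 2 ∂mP) * ∫ t, ‖F t‖ ^ 2 := by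
  rw [ell_prod h hG (hF.restrict _), mul_assoc]
  exact mul_le_mul_of_nonneg_left (mul_le_mul_of_nonneg_left (setIntegral_le_integral (sq_int hF)
    (.of_forall fun _ => sq_nonneg _)) (integral_nonneg fun _ => sq_nonneg _)) h.nonneg

/-- the vectors as a linear map -/
def EL0 : 𝓢(ℝ, ℂ) →ₗ[ℂ] Completion D where
  toFun F := ell fun p => G (pm p) * F (tc p)
  map_add' F F' := by
    rw [← ell_add h (mem_prod hG ((F.memLp 2).restrict _)) (mem_prod hG ((F'.memLp 2).restrict _))]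
    simp only [SchwartzMap.add_apply, mul_add]
  map_smul' a F := by
    rw [RingHom.id_apply, ← ell_smul h a (mem_prod hG ((F.memLp 2).restrict _))]
    simp only [SchwartzMap.smul_apply, smul_eq_mul, mul_left_comm a]

/-- the vectors as a continuous linear map -/
def EL : 𝓢(ℝ, ℂ) →L[ℂ] Completion D where
  toLinearMap := EL0 h hG
  cont := continuous_of_continuousAt_zero (EL0 h hG) (by
    rw [ContinuousAt, map_zero]
    have := ((SchwartzMap.toLpCLM ℂ ℂ 2 (volume : Measure ℝ)).continuous.norm.const_mul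
      √(c0 * ∫ k, ‖G k‖ ^ 2 ∂mP)).tendsto 0
    rw [map_zero, norm_zero, mul_zero] at this
    refine squeeze_zero_norm (fun F => abs_le_of_sq_le_sq' ?_ (by positivity) |>.2) this
    rw [mul_pow, Real.sq_sqrt (mul_nonneg h.nonneg (integral_nonneg fun _ => sq_nonneg _))]
    refine (el_le h hG (F.memLp 2)).trans_eq ?_
    rw [← inner_self_eq_norm_sq (𝕜 := ℂ), L2.inner_def, ← integral_re (L2.integrable_inner _ _)]
    congr 1
    refine integral_congr_ae ?_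
    filter_upwards [F.coeFn_toLp 2 volume] with t ht
    rw [inner_self_eq_norm_sq, SchwartzMap.toLpCLM_apply, ht])

/-- `φ ↦ ell (G(p, q) φ^(μ / 2 p))` -/
def La : 𝓢(ℝ, ℂ) →L[ℂ] Completion D := EL h hG ∘L d1.F.toContinuousLinearMap

lemma La_apply (φ : 𝓢(ℝ, ℂ)) : La h hG φ = ell fun p => G (pm p) * ft1 φ (tc p) := by
  rw [ft1_eq, ← d1.coe_F]
  rfl

lemma La_le (φ : 𝓢(ℝ, ℂ)) :
    ‖La h hG φ‖ ^ 2 ≤ c0 * (∫ k, ‖G k‖ ^ 2 ∂mP) * (2 * Real.pi) * ∫ t, ‖φ t‖ ^ 2 := by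
  rw [La_apply, mul_assoc, ← planch (sw_coe φ)]
  exact el_le h hG (l2 (sw_ft1 (sw_coe φ)))

lemma Tht_eq {γ : P3 → ℂ} (e : ∀ k, G k = -(I * k.1) * γ k) {φ : ℝ → ℝ} (hφ : Tst φ) :
    Tht ell γ φ = (6 : ℂ) • La h hG (SchwartzMap.derivCLM ℂ ℂ (sch (cx φ))) := by
  have k : ∀ t, ft1 (SchwartzMap.derivCLM ℂ ℂ (sch (cx φ))) t = -(I * t) * ft1 (cx φ) t := fun t => by
    have := gft_deriv_sch (B := d1.B) (sch (cx φ)) 1 t
    rw [← ft1_eq, ← ft1_eq, show d1.B t 1 = t from mul_one t] at this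
    exact this.trans (by rw [coe_sch (f := cx φ) (tst_sw hφ)])
  have m := mem_prod hG ((l2 (sw_ft1 (sw_coe (SchwartzMap.derivCLM ℂ ℂ (sch (cx φ)))))).restrict _)
  rw [La_apply, Tht, show (6 : ℂ) = -3 * -2 by norm_num, mul_smul, ← ell_smul h _ m]
  refine congrArg _ (ell_congr' h (m.const_mul _) fun p hp => ?_).symm
  rw [k, e, ← tc, mu_tc hp, pm_1]
  push_cast
  linear_combination (-2 * be p * tc p * γ (pm p) * ft1 (cx φ) (tc p)) * Complex.I_mul_I

omit hG in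
/-- the difference of the two Fourier variables -/
lemma near {g : P3 → ℂ} (hg : Sw g) (hG : MemLp (ft3 (da g)) 2 mP) : ∃ C : ℝ, ∀ φ : ℝ → ℝ, Tst φ →
    IsTest (pf g (cx φ)) → dv va (pf g (cx φ)) = pf (da g) (cx φ) →
    ‖La h hG (sch (cx φ)) - c.l (pf g (cx φ))‖ ^ 2 ≤ C * ∫ t, (t * φ t) ^ 2 := by
  have q := fun i : Fin 2 => ((ContinuousLinearMap.proj i : R2 →L[ℝ] ℝ) ∘L
    ContinuousLinearMap.snd ℝ ℝ R2).hasTemperateGrowth
  have h1 : MemLp (fun k : P3 => ((d2 k.2 k.2 : ℝ) : ℂ) * ft3 g k) 2 mP :=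
    (l2 (sw_rmul (u := fun k : P3 => d2 k.2 k.2) (((q 0).mul (q 0)).add ((q 1).mul (q 1)))
      (sw_ft3 hg))).restrict _
  refine ⟨c0 * ((∫ k, ‖((d2 k.2 k.2 : ℝ) : ℂ) * ft3 g k‖ ^ 2 ∂mP) * (2 * Real.pi)),
    fun φ hφ ht he => ?_⟩
  have s1 : Sw (ft1 (cx φ)) := sw_ft1 (tst_sw hφ)
  have s2 : Sw (ft3 (da g)) := sw_ft3 (sw_fderiv _ hg)
  have m1 := mem_prod hG ((l2 s1).restrict _)
  have m2 : MemLp (fun p => ft3 (da g) (pm p) * ft1 (cx φ) (al p)) 2 mF :=
    (sc_pt'.mul_memLp (by simp) (l2 s2) (l2 s1)).restrict _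
  have c1 := (sw_cont s1).measurable
  have c2 := (sw_cont s2).measurable
  have p0 : 0 ≤ ∫ t, (t * φ t) ^ 2 := integral_nonneg fun _ => sq_nonneg _
  rw [La_apply, coe_sch (f := cx φ) (tst_sw hφ), ← h.pot _ ht, he, funext (ft_pf _ _),
    ← ell_sub h m1 m2, ell_sq h (ψ := fun p => _ - _) (m1.sub m2), mul_assoc, mul_assoc]
  refine mul_le_mul_of_nonneg_left ?_ h.nonneg
  set F : P3 × ℝ → ℝ := fun y =>
    ‖ft3 (da g) y.1‖ ^ 2 * ‖ft1 (cx φ) y.2 - ft1 (cx φ) (y.2 + sh y.1)‖ ^ 2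
  rw [integral_congr_ae (g := fun p => F (pm p, tc p)) (by
    filter_upwards [ae_restrict_mem meas_Fc] with p hp
    simp only [F, tc_eq ((mem_Fc p).1 hp).1.ne', sub_add_cancel, ← mul_sub, norm_mul, mul_pow]),
    int_crd (Measurable.aestronglyMeasurable (by fun_prop))]
  by_cases i : Integrable F (mP.prod Th.mI)
  swap
  · rw [integral_undef i]
    exact mul_nonneg (integral_nonneg fun _ => sq_nonneg _) (by positivity)
  rw [integral_prod _ i, ← integral_mul_const]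
  refine integral_mono_of_nonneg (.of_forall fun _ => integral_nonneg fun _ => by positivity)
    ((sq_int h1).mul_const _) ?_
  filter_upwards [ae_restrict_mem meas_pos] with k hk
  simp only [F, integral_const_mul]
  refine (mul_le_mul_of_nonneg_left (shift hφ _) (sq_nonneg _)).trans ?_
  rw [← mul_assoc]
  refine mul_le_mul_of_nonneg_right ?_ (by positivity)
  have k0 : k.1 ≠ 0 := hk.ne'
  simp only [ft3_da hg, norm_mul, norm_neg, Complex.norm_I, Complex.norm_real, mul_pow, sh,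
    Real.norm_eq_abs, sq_abs, one_pow, one_mul, div_pow]
  field_simp
  nlinarith [sq_nonneg (‖ft3 g k‖ * d2 k.2 k.2)]

end

end Vale.Agent.P352X.ZZ.D1
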