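import Vale.Agent.P352X.R.D1.Sm
import Vale.Agent.P352Z.R.D1.Fo
import Vale.Agent.P352Z.Api1C

/-!
# P352Z, row D1: the thin vectors are almost invariant
-/

set_option linter.all false

open MeasureTheory Filter Topology Set
open scoped SchwartzMap ComplexConjugate ContDiff

namespace Vale.Agent.P352X.ZZ.D1

open Vale.Agent.P352 Vale.Agent.P352.GF Vale.Agent.P352.H755
open Th Ap Ib
open UniformSpace (Completion)
open Complex (I)

noncomputable section

export Vale.Agent.P352X.D1 (sqrt_inv_mul inv_mul_sqrt_inv int_lo int_hi lo_le hi_le tails mid avg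
  st st_sm st_0 st_1 et st_der et_0 et_tst et_int th th_bump chm_th sd_chi ps ps_0 sd_ps dil_ps
  tst_dlt der_ps plat xs xs_ge xs_one xs_pos xs_lt Ph a_pos Ph_tst Ph_S1 Ph_supp int_dlt Ph_int
  Ph_abs Ph_sq sq_dlt)

variable {D : Type*} [NormedAddCommGroup D] [InnerProductSpace ℂ D] {c : Ctx D}
  {ell : (V → ℂ) → Completion D} {c0 : ℝ} {cc : (ℝ → ℝ) → (ℝ → ℝ) → ℂ} {dd : (ℝ → ℝ) → ℝ}
  {G γ : P3 → ℂ} {φ φ' : ℝ → ℝ} {a b s : ℝ}

variable (c ell γ) in
/-- the form of `Kt` -/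
def bf (φ' φ : ℝ → ℝ) : ℂ := inner ℂ (Tht ell γ φ') (gen c.Sk (Tht ell γ φ))

variable (kt : KT c) (S : Schur c ell cc dd) (hγ : MemLp γ 2 m3)
include kt S hγ

lemma bf_eq (h' : D0 φ') (h : D0 φ) :
    bf c ell γ φ' φ = inner ℂ (gen c.Sk (Tht ell γ φ')) (Tht ell γ φ) :=
  kt.ugk.symm (S.dom _ _ hγ h').gn (S.dom _ _ hγ h).gn

lemma bf_conj (h' : D0 φ') (h : D0 φ) : bf c ell γ φ' φ = conj (bf c ell γ φ φ') := by
  rw [bf_eq kt S hγ h' h, bf, inner_conj_symm]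

omit kt in
lemma bf_dil (h' : Sd φ') (h : Sd φ) (hs : 0 < s) :
    bf c ell γ (dil s φ') (dil s φ) = bf c ell γ φ' φ := by
  rw [bf, bf, S.form _ _ _ _ hγ (h'.dil hs).d0 hγ (h.dil hs).d0, S.form _ _ _ _ hγ h'.d0 hγ h.d0,
    S.scc _ _ _ h'.d0 h.d0 hs]

omit kt in
lemma gen_dil (h : Sd φ) (hs : 0 < s) :
    ‖gen c.Sk (Tht ell γ (dil s φ))‖ = ‖gen c.Sk (Tht ell γ φ)‖ * √s := by
  rw [← sq_eq_sq₀ (norm_nonneg _) (by positivity), mul_pow, Real.sq_sqrt hs.le,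
    S.nrm _ _ hγ (h.dil hs).d0, S.nrm _ _ hγ h.d0, S.sdd _ _ h.d0 hs]
  ring

variable (h : Ell c ell c0) (hG : MemLp G 2 mP) (e : ∀ k, G k = -(I * k.1) * γ k)
include h hG e

lemma bf_ps (h' : D0 φ') (ha : 0 < a) (hb : 0 < b) : bf c ell γ φ' (ps a b) =
    ∫ s in a..b, ((s⁻¹ : ℝ) : ℂ) • bf c ell γ φ' (dil s (chm th)) := by
  rw [bf_eq kt S hγ h' (sd_ps ha hb).d0, Tht_eq h hG e (sd_ps ha hb).1]
  refine (plat (innerSL ℂ (gen c.Sk (Tht ell γ φ')) ∘L ((6 : ℂ) • (La h hG ∘L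
    SchwartzMap.derivCLM ℂ ℂ))) ha hb).trans (intervalIntegral.integral_congr fun s hs => ?_)
  have k := sd_chi.dil ((lt_min ha hb).trans_le hs.1)
  beta_reduce
  rw [bf_eq kt S hγ h' k.d0, Tht_eq h hG e k.1]
  rfl

lemma orth (hY : YY cc (chm th) (chm th) = 0) : ∃ K, 0 ≤ K ∧ ∀ x y : ℝ, 1 ≤ x → 0 < y →
    ‖bf c ell γ (ps (y ^ 2)⁻¹ (y ^ 2)) (ps (x ^ 2)⁻¹ (x ^ 2))‖ ≤ K * (x / y) := by
  set K := ‖Tht ell γ (chm th)‖ * ‖gen c.Sk (Tht ell γ (chm th))‖
  have K0 : 0 ≤ K := by positivity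
  have χ := sd_chi
  have b0 : ∀ s : ℝ, s ∈ Ioi (0 : ℝ) → bf c ell γ (chm th) (dil s (chm th)) / s =
      conj (cc (dil s (chm th)) (chm th) / s * ∫ k, conj (γ k) * γ k ∂m3) := fun s hs => by
    rw [bf_conj kt S hγ χ.d0 (χ.dil hs).d0, bf, S.form _ _ _ _ hγ (χ.dil hs).d0 hγ χ.d0,
      div_mul_eq_mul_div, map_div₀, Complex.conj_ofReal]
  have b1 : ∀ s, 0 < s → ‖bf c ell γ (chm th) (dil s (chm th))‖ ≤ K * √s := fun s hs =>
    (norm_inner_le_norm _ _).trans_eq (by rw [gen_dil S hγ χ hs, mul_assoc])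
  have b2 : ∀ s, 0 < s → ‖bf c ell γ (chm th) (dil s (chm th))‖ ≤ K * (√s)⁻¹ := fun s hs => by
    have := bf_dil S hγ χ (χ.dil hs) (inv_pos.2 hs)
    rw [dil_dil, inv_mul_cancel₀ hs.ne', dil_one] at this
    rw [← this, bf_conj kt S hγ (χ.dil (inv_pos.2 hs)).d0 χ.d0, RCLike.norm_conj, ← Real.sqrt_inv]
    exact b1 _ (inv_pos.2 hs)
  have t := fun x y => tails (β := fun s => bf c ell γ (chm th) (dil s (chm th))) (x := x) (y := y)
    ((integrableOn_congr_fun b0 measurableSet_Ioi).2 (Complex.conjCLE.toContinuousLinearMap.integrable_comp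
      ((S.int _ _ χ.d0 χ.d0).mul_const _)))
    (by rw [setIntegral_congr_fun measurableSet_Ioi b0, integral_conj, integral_mul_const, ← YY, hY,
      zero_mul, map_zero]) K0 b1 b2
  refine ⟨8 * K, by positivity, fun x y hx hy => ?_⟩
  have x0 := one_pos.trans_le hx
  have p1 : 0 < y ^ 2 := by positivity
  have p2 := inv_pos.2 p1
  have p3 : 0 < x ^ 2 := by positivity
  rw [bf_ps kt S hγ h hG e (sd_ps p2 p1).d0 (inv_pos.2 p3) p3]
  refine (mid (A := 2 * K * y⁻¹) (B := 2 * K * y⁻¹) (inv_pos.2 p3) ((inv_le_one_of_one_le₀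
    (one_le_pow₀ hx)).trans (one_le_pow₀ hx)) (by positivity) (by positivity)
    fun s hs => ?_).trans_eq ?_
  · have q1 := div_pos p1 hs
    have q2 := div_pos p2 hs
    rw [bf_conj kt S hγ (sd_ps p2 p1).d0 (χ.dil hs).d0, RCLike.norm_conj, ← dil_ps hs,
      bf_dil S hγ χ (sd_ps q2 q1) hs, bf_ps kt S hγ h hG e χ.d0 q2 q1]
    simp only [smul_eq_mul, Complex.ofReal_inv, ← div_eq_inv_mul]
    refine (t _ _ q2 q1).trans_eq ?_
    rw [Real.sqrt_div p1.le, Real.sqrt_div p2.le, Real.sqrt_inv, Real.sqrt_sq hy.le]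
    field_simp
  · rw [Real.sqrt_inv, Real.sqrt_sq x0.le]
    field_simp
    ring

theorem small (hY : YY cc (chm th) (chm th) = 0) {r : ℝ} (hr : 0 ≤ r) :
    Tendsto (fun n => c.Sk r (La h hG (S1 (Ph n))) - La h hG (S1 (Ph n))) atTop (𝓝 0) := by
  obtain ⟨K, K0, hK⟩ := orth kt S hγ h hG e hY
  have lim := tendsto_one_div_add_atTop_nhds_zero_nat (𝕜 := ℝ)
  have sd := fun n j => sd_ps (a_pos n j) (pow_pos (xs_pos n j) 2)
  set z : ℕ → Completion D := fun n => ((n + 1 : ℝ)⁻¹ : ℂ) •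
    ∑ j ∈ Finset.range (n + 1), Tht ell γ (ps (xs n j ^ 2)⁻¹ (xs n j ^ 2))
  set u : ℕ → Completion D := fun n => ((n + 1 : ℝ)⁻¹ : ℂ) •
    ∑ j ∈ Finset.range (n + 1), La h hG (S1 (dlt (xs n j ^ 2) et))
  have h1 : Tendsto (fun n => c.Sk r (z n) - z n) atTop (𝓝 0) := by
    have := (lim.const_mul (4 * r * K)).sqrt
    rw [mul_zero, Real.sqrt_zero] at this
    refine squeeze_zero_norm (fun n => Real.le_sqrt_of_sq_le ((kt.lip _ _ r hr ((Gn.sum _
      fun j _ => (S.dom _ _ hγ (sd n j).d0).gn).smul _)).trans ?_)) this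
    refine (mul_le_mul_of_nonneg_left ((Complex.re_le_norm _).trans (avg n (C := K)
      (ε := K * (1 / (n + 1))) (by positivity) (fun i => ?_) fun i j hij => ?_))
        (by positivity)).trans_eq (by ring)
    · simpa only [div_self (xs_pos n i).ne', mul_one, bf] using hK _ _ (xs_one n i) (xs_pos n i)
    · rcases lt_or_gt_of_ne hij with k | k
      · rw [← bf, bf_conj kt S hγ (sd n i).d0 (sd n j).d0, RCLike.norm_conj]
        exact (hK _ _ (xs_one n i) (xs_pos n j)).trans (mul_le_mul_of_nonneg_left (xs_lt n k) K0)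
      · exact (hK _ _ (xs_one n j) (xs_pos n i)).trans (mul_le_mul_of_nonneg_left (xs_lt n k) K0)
  have h2 : Tendsto u atTop (𝓝 0) := by
    set C := c0 * (∫ k, ‖G k‖ ^ 2 ∂mP) * (2 * Real.pi) * ∫ t, et t ^ 2
    have C0 : 0 ≤ C := mul_nonneg (mul_nonneg (mul_nonneg h.nonneg (integral_nonneg fun _ =>
      sq_nonneg _)) Real.two_pi_pos.le) (integral_nonneg fun _ => sq_nonneg _)
    refine squeeze_zero_norm (fun n => ?_) (by simpa only [mul_zero] using lim.const_mul √C)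
    have p : (0 : ℝ) < n + 1 := by positivity
    simp only [u, norm_smul, norm_inv, Complex.norm_real, Real.norm_of_nonneg p.le]
    rw [inv_mul_le_iff₀ p]
    refine (norm_sum_le _ _).trans ((Finset.sum_le_card_nsmul _ _ (√C * (1 / (n + 1)))
      fun j _ => ?_).trans_eq (by simp))
    have x1 := xs_ge n j
    refine abs_le_of_sq_le_sq' ((La_le h hG _).trans ?_) (by positivity) |>.2
    rw [sq_dlt (pow_pos (xs_pos n j) 2), mul_left_comm, mul_pow, Real.sq_sqrt C0, mul_comm,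
      one_div, inv_pow]
    gcongr
    linarith
  have h3 : ∀ n, La h hG (S1 (Ph n)) = u n - (6 : ℂ)⁻¹ • z n := fun n => by
    simp only [z, u, Tht_eq h hG e (sd n _).1, der_ps (a_pos n _) (pow_pos (xs_pos n _) 2), Ph_S1,
      map_smul, map_sum, map_sub, ← Finset.smul_sum, Finset.sum_sub_distrib, Complex.ofReal_inv]
    module
  have := (((c.Sk r).continuous.tendsto 0).comp h2).sub h2 |>.sub (h1.const_smul (6 : ℂ)⁻¹)
  rw [map_zero, smul_zero, sub_zero, sub_zero] at this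
  refine this.congr fun n => ?_
  simp only [h3, Function.comp, map_sub, map_smul]
  module

end

end Vale.Agent.P352X.ZZ.D1
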